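import Vale.Agent.P061.Final

/-! P061, strong thin tree conjecture: simple graphs of minimum degree at least `δ n`. -/

namespace Vale.Agent.Results.P061.DenseGraphs

open _root_.P061

theorem cut_singleton {V : Type} [Fintype V] (G : SimpleGraph V) (v : V) :
    cutSize G {v} ≤ (nb G v).card := by
  classical
  unfold cutSize
  refine Finset.card_le_card_of_injOn (fun p => p.2) ?_ ?_
  · intro p hp
    simp only [Finset.coe_filter, Finset.mem_product, Finset.mem_singleton,
      Set.mem_setOf_eq] at hp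
    simp only [nb, Finset.coe_filter, Finset.mem_univ, true_and, Set.mem_setOf_eq]
    rw [← hp.1.1]
    exact hp.2
  · intro p hp q hq h
    simp only [Finset.coe_filter, Finset.mem_product, Finset.mem_singleton,
      Set.mem_setOf_eq] at hp hq
    exact Prod.ext (hp.1.1.trans hq.1.1.symm) h

theorem result :
    (∀ δ : ℝ, 0 < δ → ∃ C : ℝ, 0 < C ∧
      ∀ (V : Type) [Fintype V] (G : SimpleGraph V) (k : ℕ), 2 ≤ Fintype.card V → 1 ≤ k →
        (∀ v, δ * Fintype.card V ≤ ((nb G v).card : ℝ)) →
        (∀ S : Finset V, S.Nonempty → S ≠ Finset.univ → k ≤ cutSize G S) →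
        ∃ T : SimpleGraph V, T ≤ G ∧ T.IsTree ∧
          ∀ S : Finset V, S.Nonempty → S ≠ Finset.univ →
            (cutSize T S : ℝ) ≤ C / k * cutSize G S) ∧
    (∀ δ : ℝ, 0 < δ → ∃ C : ℝ, 0 < C ∧
      ∀ (V : Type) [Fintype V] (G : SimpleGraph V) (k : ℕ), 2 ≤ Fintype.card V →
        δ * Fintype.card V ≤ k →
        (∀ S : Finset V, S.Nonempty → S ≠ Finset.univ → k ≤ cutSize G S) →
        ∃ T : SimpleGraph V, T ≤ G ∧ T.IsTree ∧
          ∀ S : Finset V, S.Nonempty → S ≠ Finset.univ →
            (cutSize T S : ℝ) ≤ C / k * cutSize G S) := by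
  refine ⟨fun δ hδ => main δ hδ, fun δ hδ => ?_⟩
  obtain ⟨C, hC, h⟩ := main δ hδ
  refine ⟨C, hC, ?_⟩
  intro V _ G k hn hk hcut
  have hn0 : (0 : ℝ) < Fintype.card V := by
    have : 0 < Fintype.card V := by omega
    exact_mod_cast this
  have hk1 : 1 ≤ k := by
    have h1 : (0 : ℝ) < k := lt_of_lt_of_le (mul_pos hδ hn0) hk
    exact_mod_cast h1
  refine h V G k hn hk1 ?_ hcut
  intro v
  have h1 : k ≤ cutSize G {v} := by
    refine hcut {v} (Finset.singleton_nonempty v) ?_
    intro h2
    have h3 : ({v} : Finset V).card = Fintype.card V := by rw [h2, Finset.card_univ]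
    rw [Finset.card_singleton] at h3
    omega
  have h2 : (k : ℝ) ≤ ((nb G v).card : ℝ) := by exact_mod_cast h1.trans (cut_singleton G v)
  exact hk.trans h2

end Vale.Agent.Results.P061.DenseGraphs
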