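import Vale.Agent.P061.Final2

/-! P061, strong thin tree conjecture: multigraphs in which every vertex has at least `δ n`
distinct neighbours. -/

namespace Vale.Agent.Results.P061.DenseMultigraphs

open _root_.P061 Classical

/-- number of edges, counted with multiplicity, with exactly one endpoint in `S`, in the multigraph
with `μ x y` parallel edges between `x` and `y` -/
noncomputable def multiCut {V : Type} [Fintype V] (μ : V → V → ℕ) (S : Finset V) : ℕ :=
  ∑ x ∈ S, ∑ y ∈ Sᶜ, μ x y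

/-- the simple graph underlying a multigraph -/
def und {V : Type} (μ : V → V → ℕ) (hs : ∀ x y, μ x y = μ y x) (hl : ∀ x, μ x x = 0) :
    SimpleGraph V where
  Adj := fun x y => 0 < μ x y
  symm := ⟨by
    intro x y h
    rw [hs y x]
    exact h⟩
  loopless := ⟨by
    intro x h
    rw [hl x] at h
    exact absurd h (lt_irrefl 0)⟩

theorem cut_le {V : Type} [Fintype V] (μ : V → V → ℕ) (hs : ∀ x y, μ x y = μ y x)
    (hl : ∀ x, μ x x = 0) (S : Finset V) : cutSize (und μ hs hl) S ≤ multiCut μ S := by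
  unfold cutSize multiCut
  rw [← Finset.sum_product' S Sᶜ μ, Finset.card_filter]
  refine Finset.sum_le_sum fun p _ => ?_
  by_cases h : (und μ hs hl).Adj p.1 p.2
  · rw [if_pos h]; exact h
  · rw [if_neg h]; exact Nat.zero_le _

theorem one_le_cut {V : Type} [Fintype V] (μ : V → V → ℕ) (hs : ∀ x y, μ x y = μ y x)
    (hl : ∀ x, μ x x = 0) (S : Finset V) (h : 1 ≤ multiCut μ S) :
    1 ≤ cutSize (und μ hs hl) S := by
  by_contra h0
  have h1 : cutSize (und μ hs hl) S = 0 := by omega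
  unfold cutSize at h1
  rw [Finset.card_eq_zero, Finset.filter_eq_empty_iff] at h1
  have h2 : multiCut μ S = 0 := by
    unfold multiCut
    refine Finset.sum_eq_zero fun x hx => Finset.sum_eq_zero fun y hy => ?_
    have h3 := h1 (Finset.mem_product.mpr ⟨hx, hy⟩ : (x, y) ∈ S ×ˢ Sᶜ)
    exact Nat.eq_zero_of_not_pos h3
  omega

theorem result :
    (∀ δ : ℝ, 0 < δ → ∃ C : ℝ, 0 < C ∧
      ∀ (V : Type) [Fintype V] (μ : V → V → ℕ) (k : ℕ),
        (∀ x y, μ x y = μ y x) → (∀ x, μ x x = 0) → 2 ≤ Fintype.card V → 1 ≤ k →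
        (∀ v, δ * Fintype.card V ≤ ((Finset.univ.filter (fun u => 0 < μ v u)).card : ℝ)) →
        (∀ S : Finset V, S.Nonempty → S ≠ Finset.univ → k ≤ multiCut μ S) →
        ∃ T : SimpleGraph V, (∀ x y, T.Adj x y → 0 < μ x y) ∧ T.IsTree ∧
          ∀ S : Finset V, S.Nonempty → S ≠ Finset.univ →
            (cutSize T S : ℝ) ≤ C * (1 / k + 1 / Fintype.card V) * multiCut μ S) ∧
    (∀ δ A : ℝ, 0 < δ → 0 < A → ∃ C : ℝ, 0 < C ∧
      ∀ (V : Type) [Fintype V] (μ : V → V → ℕ) (k : ℕ),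
        (∀ x y, μ x y = μ y x) → (∀ x, μ x x = 0) → 2 ≤ Fintype.card V → 1 ≤ k →
        k ≤ A * Fintype.card V →
        (∀ v, δ * Fintype.card V ≤ ((Finset.univ.filter (fun u => 0 < μ v u)).card : ℝ)) →
        (∀ S : Finset V, S.Nonempty → S ≠ Finset.univ → k ≤ multiCut μ S) →
        ∃ T : SimpleGraph V, (∀ x y, T.Adj x y → 0 < μ x y) ∧ T.IsTree ∧
          ∀ S : Finset V, S.Nonempty → S ≠ Finset.univ →
            (cutSize T S : ℝ) ≤ C / k * multiCut μ S) := by
  have hmain : ∀ δ : ℝ, 0 < δ → ∃ C : ℝ, 0 < C ∧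
      ∀ (V : Type) [Fintype V] (μ : V → V → ℕ) (k : ℕ),
        (∀ x y, μ x y = μ y x) → (∀ x, μ x x = 0) → 2 ≤ Fintype.card V → 1 ≤ k →
        (∀ v, δ * Fintype.card V ≤ ((Finset.univ.filter (fun u => 0 < μ v u)).card : ℝ)) →
        (∀ S : Finset V, S.Nonempty → S ≠ Finset.univ → k ≤ multiCut μ S) →
        ∃ T : SimpleGraph V, (∀ x y, T.Adj x y → 0 < μ x y) ∧ T.IsTree ∧
          ∀ S : Finset V, S.Nonempty → S ≠ Finset.univ →
            (cutSize T S : ℝ) ≤ C * (1 / k + 1 / Fintype.card V) * multiCut μ S := by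
    intro δ hδ
    obtain ⟨C, hC, h⟩ := main_w δ hδ
    refine ⟨C, hC, ?_⟩
    intro V _ μ k hs hl hn hk hdeg hcut
    obtain ⟨T, hT1, hT2, hT3⟩ := h V (und μ hs hl) k (multiCut μ) hn hk (by
      intro v
      refine (hdeg v).trans ?_
      have : (Finset.univ.filter (fun u => 0 < μ v u)).card ≤ (nb (und μ hs hl) v).card := by
        refine Finset.card_le_card fun u hu => ?_
        simp only [Finset.mem_filter, Finset.mem_univ, true_and] at hu
        simp only [nb, Finset.mem_filter, Finset.mem_univ, true_and]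
        exact hu
      exact_mod_cast this)
      (fun S hS hS' => one_le_cut μ hs hl S (hk.trans (hcut S hS hS')))
      (fun S => cut_le μ hs hl S) hcut
    exact ⟨T, fun x y hxy => hT1 hxy, hT2, hT3⟩
  refine ⟨hmain, ?_⟩
  intro δ A hδ hA
  obtain ⟨C, hC, h⟩ := hmain δ hδ
  refine ⟨C * (1 + A), by positivity, ?_⟩
  intro V _ μ k hs hl hn hk hkA hdeg hcut
  obtain ⟨T, hT1, hT2, hT3⟩ := h V μ k hs hl hn hk hdeg hcut
  refine ⟨T, hT1, hT2, fun S hS hS' => (hT3 S hS hS').trans ?_⟩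
  have hn0 : (0 : ℝ) < Fintype.card V := by
    have : 0 < Fintype.card V := by omega
    exact_mod_cast this
  have hk0 : (0 : ℝ) < k := by exact_mod_cast hk
  have h1 : 1 / (Fintype.card V : ℝ) ≤ A / k := by
    rw [div_le_div_iff₀ hn0 hk0]
    linarith
  have h2 : C * (1 / k + 1 / (Fintype.card V : ℝ)) ≤ C * (1 + A) / k := by
    calc C * (1 / k + 1 / (Fintype.card V : ℝ)) ≤ C * (1 / k + A / k) := by
          apply mul_le_mul_of_nonneg_left _ hC.le
          linarith
      _ = C * (1 + A) / k := by ring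
  exact mul_le_mul_of_nonneg_right h2 (by positivity)

end Vale.Agent.Results.P061.DenseMultigraphs
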